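import Mathlib

namespace Vale.Agent.Results.P050.IncreasingKernels

open Finset

/-- Sum over all functions of a product over coordinates. -/
private lemma sum_pi_prod {ι κ : Type*} [Fintype ι] [DecidableEq ι] [Fintype κ]
    (g : ι → κ → ℝ) :
    ∑ f : ι → κ, ∏ i, g i (f i) = ∏ i, ∑ j, g i j := by
  have := Finset.sum_prod_piFinset (univ : Finset κ) g
  rwa [Fintype.piFinset_univ] at this

/-- Integrating a product over a subset of the coordinates against a product probability
measure. -/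
private lemma sum_pi_prod_subset {ι κ : Type*} [Fintype ι] [DecidableEq ι] [Fintype κ]
    (μ : κ → ℝ) (hμ1 : ∑ a, μ a = 1) (N : Finset ι) (h : κ → ℝ) :
    ∑ x : ι → κ, (∏ u, μ (x u)) * ∏ u ∈ N, h (x u) = (∑ a, μ a * h a) ^ N.card := by
  have h1 : ∀ x : ι → κ, (∏ u, μ (x u)) * ∏ u ∈ N, h (x u)
      = ∏ u, (μ (x u) * (if u ∈ N then h (x u) else 1)) := by
    intro x
    rw [Finset.prod_mul_distrib, Finset.prod_ite_mem, Finset.univ_inter]
  simp_rw [h1]
  rw [sum_pi_prod (fun u a => μ a * (if u ∈ N then h a else 1))]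
  have h2 : ∀ u : ι, ∑ a, μ a * (if u ∈ N then h a else 1)
      = (if u ∈ N then ∑ a, μ a * h a else 1) := by
    intro u
    by_cases hu : u ∈ N
    · simp [hu]
    · simp [hu, hμ1]
  simp_rw [h2]
  rw [Finset.prod_ite_mem, Finset.univ_inter, Finset.prod_const]

/-- Iterated Harris/FKG inequality for a log-supermodular probability measure on a finite
distributive lattice. -/
private lemma fkg_prod {α ι : Type*} [DistribLattice α] [Fintype α] (M : α → ℝ)
    (hM0 : ∀ a, 0 ≤ M a) (hM1 : ∑ a, M a = 1)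
    (hM : ∀ a b, M a * M b ≤ M (a ⊓ b) * M (a ⊔ b)) (s : Finset ι)
    (F : ι → α → ℝ) (h0 : ∀ v a, 0 ≤ F v a) (hmon : ∀ v, Monotone (F v)) :
    ∏ v ∈ s, ∑ a, M a * F v a ≤ ∑ a, M a * ∏ v ∈ s, F v a := by
  classical
  induction s using Finset.induction_on with
  | empty => simp [hM1]
  | insert v s hv ih =>
    rw [Finset.prod_insert hv]
    have hg0 : (0 : α → ℝ) ≤ fun a => ∏ w ∈ s, F w a :=
      fun a => Finset.prod_nonneg (fun w _ => h0 w a)
    have hgm : Monotone (fun a => ∏ w ∈ s, F w a) :=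
      fun a b hab => Finset.prod_le_prod (fun w _ => h0 w a) (fun w _ => hmon w hab)
    have hfkg := fkg (F v) (fun a => ∏ w ∈ s, F w a) M hM0 (fun a => h0 v a) hg0 (hmon v) hgm hM
    rw [hM1, one_mul] at hfkg
    have hS0 : 0 ≤ ∑ a, M a * F v a :=
      Finset.sum_nonneg (fun a _ => mul_nonneg (hM0 a) (h0 v a))
    have e1 : ∀ a, ∏ w ∈ insert v s, F w a = F v a * ∏ w ∈ s, F w a :=
      fun a => Finset.prod_insert hv
    simp_rw [e1]
    exact (mul_le_mul_of_nonneg_left ih hS0).trans hfkg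

/-- **Sidorenko's inequality for increasing kernels on FKG lattices.**  Let `H` be the
bipartite graph with sides `X`, `Y` and edge set `E ⊆ X × Y`.  Let `L` be a finite
distributive lattice with a log-supermodular probability weight `μ`, let `J` be a finite
set with a probability weight `ν`, and let `W : L → J → ℝ` be nonnegative and
nondecreasing in its first argument.  Then the homomorphism density of `H` in the weighted
bipartite host `(L, μ; J, ν; W)` is at least the edge density of the host raised to the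
number of edges of `H`. -/
theorem result {X Y : Type*} [Fintype X] [Fintype Y] [DecidableEq X] [DecidableEq Y]
    (E : Finset (X × Y))
    {L J : Type*} [DistribLattice L] [Fintype L] [Fintype J]
    (μ : L → ℝ) (ν : J → ℝ)
    (hμ0 : ∀ a, 0 ≤ μ a) (hμ1 : ∑ a, μ a = 1)
    (hμ : ∀ a b, μ a * μ b ≤ μ (a ⊓ b) * μ (a ⊔ b))
    (hν0 : ∀ j, 0 ≤ ν j) (hν1 : ∑ j, ν j = 1)
    (W : L → J → ℝ) (hW : ∀ a j, 0 ≤ W a j)
    (hmono : ∀ a a' j, a ≤ a' → W a j ≤ W a' j) :
    (∑ a, ∑ j, μ a * ν j * W a j) ^ E.card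
      ≤ ∑ x : X → L, ∑ y : Y → J,
          (∏ u, μ (x u)) * (∏ v, ν (y v)) * ∏ e ∈ E, W (x e.1) (y e.2) := by
  classical
  set p : ℝ := ∑ a, ∑ j, μ a * ν j * W a j with hp
  -- neighbourhoods in `H`
  set Nb : Y → Finset X := fun v => univ.filter (fun u => (u, v) ∈ E) with hNb
  have hE : ∀ q : X × Y, q ∈ E ↔ q.2 ∈ (univ : Finset Y) ∧ q.1 ∈ Nb q.2 := by
    intro q; simp [hNb]
  set M : (X → L) → ℝ := fun x => ∏ u, μ (x u) with hM
  set G : Y → (X → L) → ℝ := fun v x => ∑ j, ν j * ∏ u ∈ Nb v, W (x u) j with hG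
  -- Step A: integrate out the `Y` side
  have hA : ∀ x : X → L,
      ∑ y : Y → J, (∏ u, μ (x u)) * (∏ v, ν (y v)) * ∏ e ∈ E, W (x e.1) (y e.2)
        = M x * ∏ v, G v x := by
    intro x
    have h1 : ∀ y : Y → J, (∏ u, μ (x u)) * (∏ v, ν (y v)) * ∏ e ∈ E, W (x e.1) (y e.2)
        = M x * ∏ v, (ν (y v) * ∏ u ∈ Nb v, W (x u) (y v)) := by
      intro y
      have h2 : ∏ e ∈ E, W (x e.1) (y e.2) = ∏ v, ∏ u ∈ Nb v, W (x u) (y v) :=
        Finset.prod_finset_product_right' E univ Nb hE (f := fun u v => W (x u) (y v))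
      rw [h2, Finset.prod_mul_distrib, mul_assoc]
    simp_rw [h1]
    rw [← Finset.mul_sum]
    congr 1
    exact sum_pi_prod (fun v j => ν j * ∏ u ∈ Nb v, W (x u) j)
  simp_rw [hA]
  -- the product measure is a log-supermodular probability measure
  have hM0 : ∀ x, 0 ≤ M x := fun x => Finset.prod_nonneg (fun u _ => hμ0 _)
  have hM1 : ∑ x, M x = 1 := by
    simp only [hM]
    rw [sum_pi_prod (fun _ a => μ a)]
    simp [hμ1]
  have hMl : ∀ x x', M x * M x' ≤ M (x ⊓ x') * M (x ⊔ x') := by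
    intro x x'
    simp only [hM]
    rw [← Finset.prod_mul_distrib, ← Finset.prod_mul_distrib]
    apply Finset.prod_le_prod
    · intro u _
      exact mul_nonneg (hμ0 _) (hμ0 _)
    · intro u _
      exact hμ (x u) (x' u)
  -- Step B: the functions `G v` are nonnegative and increasing
  have hG0 : ∀ v x, 0 ≤ G v x := fun v x =>
    Finset.sum_nonneg (fun j _ => mul_nonneg (hν0 j) (Finset.prod_nonneg (fun u _ => hW _ _)))
  have hGm : ∀ v, Monotone (G v) := by
    intro v x x' hxx
    apply Finset.sum_le_sum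
    intro j _
    apply mul_le_mul_of_nonneg_left _ (hν0 j)
    exact Finset.prod_le_prod (fun u _ => hW _ _) (fun u _ => hmono _ _ _ (hxx u))
  -- Step C: Harris/FKG
  have hC := fkg_prod M hM0 hM1 hMl (univ : Finset Y) G hG0 hGm
  -- Step D: each factor
  have hD : ∀ v, p ^ (Nb v).card ≤ ∑ x, M x * G v x := by
    intro v
    have h1 : ∑ x, M x * G v x
        = ∑ j, ν j * (∑ a, μ a * W a j) ^ (Nb v).card := by
      simp only [hG, hM]
      simp_rw [Finset.mul_sum]
      rw [Finset.sum_comm]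
      refine Finset.sum_congr rfl (fun j _ => ?_)
      have h3 : ∀ x : X → L, (∏ u, μ (x u)) * (ν j * ∏ u ∈ Nb v, W (x u) j)
          = ν j * ((∏ u, μ (x u)) * ∏ u ∈ Nb v, W (x u) j) := fun x => by ring
      simp_rw [h3]
      rw [← Finset.mul_sum, sum_pi_prod_subset μ hμ1 (Nb v) (fun a => W a j)]
    rw [h1]
    have hpm := Real.pow_arith_mean_le_arith_mean_pow (univ : Finset J) ν
      (fun j => ∑ a, μ a * W a j) (fun j _ => hν0 j) hν1
      (fun j _ => Finset.sum_nonneg (fun a _ => mul_nonneg (hμ0 a) (hW a j))) (Nb v).card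
    have hpe : ∑ j, ν j * ∑ a, μ a * W a j = p := by
      rw [hp, Finset.sum_comm]
      refine Finset.sum_congr rfl (fun j _ => ?_)
      rw [Finset.mul_sum]
      refine Finset.sum_congr rfl (fun a _ => ?_)
      ring
    rw [hpe] at hpm
    exact hpm
  -- number of edges
  have hcardE : ∏ v : Y, p ^ (Nb v).card = p ^ E.card := by
    have := Finset.prod_finset_product_right' E univ Nb hE (f := fun (_ : X) (_ : Y) => p)
    simp only [Finset.prod_const] at this
    exact this.symm
  have hp0 : 0 ≤ p := by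
    apply Finset.sum_nonneg
    intro a _
    apply Finset.sum_nonneg
    intro j _
    exact mul_nonneg (mul_nonneg (hμ0 a) (hν0 j)) (hW a j)
  calc p ^ E.card = ∏ v : Y, p ^ (Nb v).card := hcardE.symm
    _ ≤ ∏ v : Y, ∑ x, M x * G v x :=
        Finset.prod_le_prod (fun v _ => pow_nonneg hp0 _) (fun v _ => hD v)
    _ ≤ ∑ x, M x * ∏ v, G v x := hC

end Vale.Agent.Results.P050.IncreasingKernels
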