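import Mathlib

namespace Vale.Agent.Results.P050.MonotoneKernels

open Finset

/-- Sum over all functions of a product over coordinates. -/
private lemma sum_pi_prod {ι κ : Type*} [Fintype ι] [DecidableEq ι] [Fintype κ]
    (g : ι → κ → ℝ) :
    ∑ f : ι → κ, ∏ i, g i (f i) = ∏ i, ∑ j, g i j := by
  have := Finset.sum_prod_piFinset (univ : Finset κ) g
  rwa [Fintype.piFinset_univ] at this

/-- Sum over all functions of a product over a subset of the coordinates. -/
private lemma sum_pi_prod_subset {ι : Type*} [Fintype ι] [DecidableEq ι] (m : ℕ) (hm : 0 < m)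
    (N : Finset ι) (h : Fin m → ℝ) :
    ∑ x : ι → Fin m, ∏ u ∈ N, h (x u)
      = (m : ℝ) ^ Fintype.card ι * ((∑ i, h i) / m) ^ N.card := by
  have hm' : (m : ℝ) ≠ 0 := by exact_mod_cast hm.ne'
  have h1 : ∀ x : ι → Fin m, ∏ u ∈ N, h (x u)
      = ∏ u, (if u ∈ N then h (x u) else 1) := by
    intro x
    rw [Finset.prod_ite_mem, Finset.univ_inter]
  simp_rw [h1]
  rw [sum_pi_prod (fun u i => if u ∈ N then h i else 1)]
  have h2 : ∀ u : ι, ∑ j : Fin m, (if u ∈ N then h j else 1)
      = (m : ℝ) * (if u ∈ N then (∑ i, h i) / m else 1) := by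
    intro u
    by_cases hu : u ∈ N
    · simp only [hu, if_true]
      field_simp
    · simp [hu]
  simp_rw [h2]
  rw [Finset.prod_mul_distrib, Finset.prod_const, Finset.card_univ, Finset.prod_ite_mem,
    Finset.univ_inter, Finset.prod_const]

/-- Iterated Harris/FKG inequality for the uniform measure on a finite distributive lattice. -/
private lemma fkg_prod {α ι : Type*} [DistribLattice α] [Fintype α] (s : Finset ι)
    (F : ι → α → ℝ) (h0 : ∀ v a, 0 ≤ F v a) (hmon : ∀ v, Monotone (F v)) :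
    (Fintype.card α : ℝ) * ∏ v ∈ s, ∑ a, F v a
      ≤ (Fintype.card α : ℝ) ^ s.card * ∑ a, ∏ v ∈ s, F v a := by
  classical
  induction s using Finset.induction_on with
  | empty => simp
  | insert v s hv ih =>
    rw [Finset.prod_insert hv, Finset.card_insert_of_notMem hv]
    have hg0 : (0 : α → ℝ) ≤ fun a => ∏ w ∈ s, F w a :=
      fun a => Finset.prod_nonneg (fun w _ => h0 w a)
    have hgm : Monotone (fun a => ∏ w ∈ s, F w a) :=
      fun a b hab => Finset.prod_le_prod (fun w _ => h0 w a) (fun w _ => hmon w hab)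
    have hfkg := fkg (F v) (fun a => ∏ w ∈ s, F w a) (fun _ => (1 : ℝ))
      (fun _ => zero_le_one) (fun a => h0 v a) hg0 (hmon v) hgm (fun _ _ => le_refl _)
    simp only [one_mul, Finset.sum_const, Finset.card_univ, nsmul_eq_mul, mul_one] at hfkg
    have hS0 : 0 ≤ ∑ a, F v a := Finset.sum_nonneg (fun a _ => h0 v a)
    have hN0 : (0 : ℝ) ≤ (Fintype.card α : ℝ) ^ s.card := by positivity
    have e1 : ∀ a, ∏ w ∈ insert v s, F w a = F v a * ∏ w ∈ s, F w a :=
      fun a => Finset.prod_insert hv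
    simp_rw [e1]
    calc (Fintype.card α : ℝ) * ((∑ a, F v a) * ∏ w ∈ s, ∑ a, F w a)
        = (∑ a, F v a) * ((Fintype.card α : ℝ) * ∏ w ∈ s, ∑ a, F w a) := by ring
      _ ≤ (∑ a, F v a) * ((Fintype.card α : ℝ) ^ s.card * ∑ a, ∏ w ∈ s, F w a) :=
          mul_le_mul_of_nonneg_left ih hS0
      _ = (Fintype.card α : ℝ) ^ s.card * ((∑ a, F v a) * ∑ a, ∏ w ∈ s, F w a) := by ring
      _ ≤ (Fintype.card α : ℝ) ^ s.card
            * ((Fintype.card α : ℝ) * ∑ a, F v a * ∏ w ∈ s, F w a) :=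
          mul_le_mul_of_nonneg_left hfkg hN0
      _ = (Fintype.card α : ℝ) ^ (s.card + 1) * ∑ a, F v a * ∏ w ∈ s, F w a := by ring

/-- **Sidorenko's inequality for monotone step kernels.** Let `H` be the bipartite graph
with sides `X`, `Y` and edge set `E ⊆ X × Y`, and let `W` be a nonnegative `m × n` matrix
whose entries are nondecreasing down every column (`W i j ≤ W i' j` for `i ≤ i'`).  Then the
homomorphism density of `H` in the weighted bipartite host `W` is at least the edge density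
of `W` raised to the number of edges of `H`. -/
theorem result {X Y : Type*} [Fintype X] [Fintype Y] [DecidableEq X] [DecidableEq Y]
    (E : Finset (X × Y))
    (m n : ℕ) (hm : 0 < m) (hn : 0 < n) (W : Fin m → Fin n → ℝ)
    (hW : ∀ i j, 0 ≤ W i j) (hmono : ∀ i i' j, i ≤ i' → W i j ≤ W i' j) :
    ((∑ i, ∑ j, W i j) / ((m : ℝ) * n)) ^ E.card
      ≤ (∑ x : X → Fin m, ∑ y : Y → Fin n, ∏ e ∈ E, W (x e.1) (y e.2))
          / ((m : ℝ) ^ Fintype.card X * (n : ℝ) ^ Fintype.card Y) := by
  classical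
  have hm' : (0 : ℝ) < m := by exact_mod_cast hm
  have hn' : (0 : ℝ) < n := by exact_mod_cast hn
  set p : ℝ := (∑ i, ∑ j, W i j) / ((m : ℝ) * n) with hp
  have hp0 : 0 ≤ p := by
    apply div_nonneg
    · exact Finset.sum_nonneg (fun i _ => Finset.sum_nonneg (fun j _ => hW i j))
    · positivity
  -- neighbourhoods in `H`
  set Nb : Y → Finset X := fun v => univ.filter (fun u => (u, v) ∈ E) with hNb
  have hE : ∀ q : X × Y, q ∈ E ↔ q.2 ∈ (univ : Finset Y) ∧ q.1 ∈ Nb q.2 := by
    intro q; simp [hNb]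
  -- Step A
  set G : Y → (X → Fin m) → ℝ := fun v x => ∑ j, ∏ u ∈ Nb v, W (x u) j with hG
  have hA : ∀ x : X → Fin m,
      ∑ y : Y → Fin n, ∏ e ∈ E, W (x e.1) (y e.2) = ∏ v, G v x := by
    intro x
    have h1 : ∀ y : Y → Fin n, ∏ e ∈ E, W (x e.1) (y e.2)
        = ∏ v, ∏ u ∈ Nb v, W (x u) (y v) := fun y =>
      Finset.prod_finset_product_right' E univ Nb hE (f := fun u v => W (x u) (y v))
    simp_rw [h1]
    exact sum_pi_prod (fun v j => ∏ u ∈ Nb v, W (x u) j)
  simp_rw [hA]
  -- Step B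
  have hG0 : ∀ v x, 0 ≤ G v x := fun v x =>
    Finset.sum_nonneg (fun j _ => Finset.prod_nonneg (fun u _ => hW _ _))
  have hGm : ∀ v, Monotone (G v) := by
    intro v x x' hxx
    apply Finset.sum_le_sum
    intro j _
    exact Finset.prod_le_prod (fun u _ => hW _ _) (fun u _ => hmono _ _ _ (hxx u))
  -- Step C
  have hC := fkg_prod (univ : Finset Y) G hG0 hGm
  have hcard : (Fintype.card (X → Fin m) : ℝ) = (m : ℝ) ^ Fintype.card X := by
    simp
  rw [hcard, Finset.card_univ] at hC
  -- Step D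
  have hD : ∀ v, (m : ℝ) ^ Fintype.card X * ((n : ℝ) * p ^ (Nb v).card) ≤ ∑ x, G v x := by
    intro v
    have h1 : ∑ x, G v x
        = (m : ℝ) ^ Fintype.card X * ∑ j, ((∑ i, W i j) / m) ^ (Nb v).card := by
      simp only [hG]
      rw [Finset.sum_comm, Finset.mul_sum]
      refine Finset.sum_congr rfl (fun j _ => ?_)
      exact sum_pi_prod_subset m hm (Nb v) (fun i => W i j)
    rw [h1]
    apply mul_le_mul_of_nonneg_left _ (by positivity)
    have hpm := Real.pow_arith_mean_le_arith_mean_pow (univ : Finset (Fin n))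
      (fun _ => 1 / (n : ℝ)) (fun j => (∑ i, W i j) / m)
      (fun _ _ => by positivity)
      (by simp; field_simp)
      (fun j _ => div_nonneg (Finset.sum_nonneg (fun i _ => hW i j)) hm'.le)
      (Nb v).card
    have hpe : ∑ j : Fin n, 1 / (n : ℝ) * ((∑ i, W i j) / m) = p := by
      rw [hp, Finset.sum_comm, ← Finset.mul_sum, ← Finset.sum_div]
      field_simp
    rw [hpe, ← Finset.mul_sum] at hpm
    have : (n : ℝ) * p ^ (Nb v).card
        ≤ (n : ℝ) * (1 / (n : ℝ) * ∑ j, ((∑ i, W i j) / m) ^ (Nb v).card) :=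
      mul_le_mul_of_nonneg_left hpm hn'.le
    calc (n : ℝ) * p ^ (Nb v).card
        ≤ (n : ℝ) * (1 / (n : ℝ) * ∑ j, ((∑ i, W i j) / m) ^ (Nb v).card) := this
      _ = ∑ j, ((∑ i, W i j) / m) ^ (Nb v).card := by field_simp
  -- number of edges
  have hcardE : ∏ v : Y, p ^ (Nb v).card = p ^ E.card := by
    have := Finset.prod_finset_product_right' E univ Nb hE (f := fun (_ : X) (_ : Y) => p)
    simp only [Finset.prod_const] at this
    exact this.symm
  -- Step E
  have hprod : ∏ v : Y, ((m : ℝ) ^ Fintype.card X * ((n : ℝ) * p ^ (Nb v).card))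
      ≤ ∏ v, ∑ x, G v x :=
    Finset.prod_le_prod (fun v _ => by positivity) (fun v _ => hD v)
  rw [Finset.prod_mul_distrib, Finset.prod_mul_distrib, hcardE, Finset.prod_const,
    Finset.prod_const, Finset.card_univ] at hprod
  set N : ℝ := (m : ℝ) ^ Fintype.card X with hN
  have hNpos : 0 < N := by positivity
  set T : ℝ := ∑ x : X → Fin m, ∏ v, G v x with hT
  have hfin : N * (N ^ Fintype.card Y * ((n : ℝ) ^ Fintype.card Y * p ^ E.card))
      ≤ N ^ Fintype.card Y * T :=
    le_trans (mul_le_mul_of_nonneg_left hprod hNpos.le) hC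
  have hfin2 : N ^ Fintype.card Y * (N * ((n : ℝ) ^ Fintype.card Y * p ^ E.card))
      ≤ N ^ Fintype.card Y * T := by
    calc N ^ Fintype.card Y * (N * ((n : ℝ) ^ Fintype.card Y * p ^ E.card))
        = N * (N ^ Fintype.card Y * ((n : ℝ) ^ Fintype.card Y * p ^ E.card)) := by ring
      _ ≤ N ^ Fintype.card Y * T := hfin
  have hfin3 := le_of_mul_le_mul_left hfin2 (by positivity : 0 < N ^ Fintype.card Y)
  rw [le_div_iff₀ (by positivity)]
  calc p ^ E.card * (N * (n : ℝ) ^ Fintype.card Y)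
      = N * ((n : ℝ) ^ Fintype.card Y * p ^ E.card) := by ring
    _ ≤ T := hfin3

end Vale.Agent.Results.P050.MonotoneKernels
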